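import Mathlib.AlgebraicGeometry.Morphisms.Etale
import Vale.Agent.P283R.Sl

/-!
# Bounded klt complements: fibrations which are étale over a fibration with an attracting point
-/

open CategoryTheory AlgebraicGeometry

namespace Vale.Agent.P283R.La

open Sl Sl.Var

/-- The Weil divisor `D'` is linearly equivalent to `π^* D` on the open set `O`. -/
def Lift {X Y : Var} (π : Y.X ⟶ X.X) (O : Y.X.Opens) (D' : Y.PrimeDiv →₀ ℤ)
    (D : X.PrimeDiv →₀ ℤ) : Prop :=
  ∃ j, j ≠ 0 ∧ ∀ E F, E.1.In O → E.1.map π = F.1 → D' E = D F + ord j E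

/-- `g` is the base change of `f` along the étale morphism `e`, with the projection `π`. -/
def Base {X Z Y W : Var} (f : X.X ⟶ Z.X) (g : Y.X ⟶ W.X) (π : Y.X ⟶ X.X) (e : W.X ⟶ Z.X) : Prop :=
  Etale e ∧ e ≫ Z.str = W.str ∧ IsPullback π g f e ∧ π ≫ X.str = Y.str

/-- `g` is the base change along an étale map `e : W → Z`, with `Z` affine, of a morphism
`f : X → Z` which satisfies `C` at `z = e w`; near the fibre over `w` all Weil divisors are
pulled back from `X` up to linear equivalence; every point of `Z` is moved into every neighbourhood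
of `z` by an étale endomorphism of `f` which acts trivially on the class group of `X`; every
subvariety of `W` through `w` other than `w` contains a closed point at which `P` holds. -/
def Sink {W Y : Var} (C : ∀ X Z : Var, (X.X ⟶ Z.X) → Pt Z.X → Prop) (P : Pt W.X → Prop)
    (g : Y.X ⟶ W.X) (w : Pt W.X) : Prop :=
  (∃ X Z f π e, Base f g π e ∧ IsAffine Z.X ∧ C X Z f (w.map e) ∧
    (∀ D', ∃ D U, w.In U ∧ Lift π (pre g U) D' D) ∧
    ∀ U v, (w.map e).In U → ∃ σ τ, Base f f σ τ ∧ (Pt.map τ v).In U ∧ ∀ D, Lift σ (all X.X) D D) ∧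
  ∀ η : Pt W.X, η ⤳ w → η ≠ w → ∃ v : Pt W.X, v.Closed ∧ η ⤳ v ∧ P v

end Vale.Agent.P283R.La
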