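import Vale.Agent.P283R.Zz.All
import Vale.Agent.P283R.La.W

/-!
# P283R, block ZZ: the étale ascent in the words of `La/W`
-/

open CategoryTheory AlgebraicGeometry

namespace Vale.Agent.P283R.La

open Sl Sl.Var

/-- **bounded klt complements ascend along étale maps at attracting points** -/
theorem on_sink {C : ∀ (d : ℕ) (X Z : Var), (X.X ⟶ Z.X) → X.Form d → Pt Z.X → Prop}
    {P : ∀ (d : ℕ) (X Z : Var), (X.X ⟶ Z.X) → X.Form d → X.QDiv → Pt Z.X → Prop}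
    (h : OnN fun d X Z f ω _ z => C d X Z f ω z) (h' : OnN P) :
    OnN fun d X Z f ω B z => Sink (fun X Z f z => Contraction f ∧ ∃ ω : X.Form d, ω.Nonzero ∧
      FanoType f ω ∧ C d X Z f ω z) (P d X Z f ω B) f z := fun d hd ε hε R hR =>
  (Zz.up (fun d X Z f ω z => FanoType f ω ∧ C d X Z f ω z) _
    (On.mono h fun _ _ _ _ _ _ _ u => ⟨u.1.1, u.2, u.1.2⟩) h' d hd ε hε R hR).imp fun _ H =>
    ⟨H.1, fun X Z f ω B z a b c e s t
      ⟨u, v, ⟨X', Z', f', π, p, q, r, ⟨k, η, l, m⟩, i, j⟩, g⟩ =>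
      H.2 X Z f ω B z a b c e s t ⟨v, ⟨X', Z', f', π, p, _, η, ⟨q.1, q.2.1, rfl, t⟩, q.2.2, k, r, l,
        m, i, fun U x y => let ⟨σ, τ, n, o⟩ := j U x y; ⟨σ, τ, n.1, n.2.1, n.2.2, o⟩⟩,
        fun x s n => let ⟨x, c, k, p⟩ := g x s n; ⟨x, c, k, u, v, p⟩⟩⟩

end Vale.Agent.P283R.La
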