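import Vale.Agent.P283R.La.On
import Vale.Agent.P283R.Lz.On

/-!
# P283R, block ZZ: classes which do not depend on the boundary, étale locally
-/

open CategoryTheory AlgebraicGeometry

namespace Vale.Agent.P283R.La

open Sl Sl.Var

/-- étale descent for a class which does not depend on the boundary -/
theorem on_et {C : ∀ (d : ℕ) (X Z : Var), (X.X ⟶ Z.X) → X.Form d → Pt Z.X → Prop}
    (h : OnN fun d X Z f ω _ z => C d X Z f ω z) : OnN fun d _ _ f _ _ z =>
      Lz.EtLoc (fun Y W g (η : Y.Form d) _ w => C d Y W g η w) f 0 z :=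
  Lz.mono_cl h.et fun _ _ _ _ _ B _ _ s ⟨Y, W, g, π, e, w, η, _, he, hb, a, _, u⟩ =>
    let ⟨_, bc⟩ := bc_of s he hb
    let ⟨B', k⟩ := Eb.exists_same Eb.div bc.ep B
    ⟨Y, W, g, π, e, w, η, B', he, hb, a, k, u⟩

end Vale.Agent.P283R.La
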